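import Vale.Agent.P251EJ35.Tel
import Vale.Agent.P251EJ81.Mul

/-!
# P251EJ, block HS: the realization of a presented graded algebra
-/

open CategoryTheory MonoidalCategory MonObj Limits Pretriangulated

universe u

noncomputable section

namespace Vale.Agent.P251EJ35

open Vale.Agent.P251 Vale.Agent.P251.S Vale.Agent.P251.T Vale.Agent.P251.M

variable (𝒯 : Type u) [Category.{0} 𝒯] [Preadditive 𝒯] [HasZeroObject 𝒯]
    [HasShift 𝒯 ℤ] [∀ n : ℤ, (shiftFunctor 𝒯 n).Additive] [Pretriangulated 𝒯] [IsTriangulated 𝒯]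
    [MonoidalCategory 𝒯] [SymmetricCategory 𝒯] [TensorTriangulated 𝒯] [MonoidalClosed 𝒯]
    [HasCoproducts.{0} 𝒯] [HasProducts.{0} 𝒯] [StableCat 𝒯]

/-- **Block HS.** -/
theorem hs : P251EJ.HS 𝒯 := P251EJ80.hs_of (hs1 𝒯) (P251EJ81.hs2 𝒯)

end Vale.Agent.P251EJ35
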