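import Vale.Agent.P251EJ80.TD
import Vale.Agent.P251EJ81.Free

/-!
# P251EJ, block HS, first half: the telescope of a presentation
-/

open CategoryTheory MonoidalCategory MonObj Limits Pretriangulated

set_option linter.unusedSectionVars false

universe u

noncomputable section

namespace Vale.Agent.P251EJ35

open Vale.Agent.P251 Vale.Agent.P251.S Vale.Agent.P251.T Vale.Agent.P251.M EvenSpheres
  Vale.Agent.P093.Nak Vale.Agent.P251.X Vale.Agent.P257.H80 Vale.Agent.P251EJ81

variable {𝒯 : Type u} [Category.{0} 𝒯] [Preadditive 𝒯] [HasZeroObject 𝒯]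
    [HasShift 𝒯 ℤ] [∀ n : ℤ, (shiftFunctor 𝒯 n).Additive] [Pretriangulated 𝒯] [IsTriangulated 𝒯]
    [MonoidalCategory 𝒯] [SymmetricCategory 𝒯] [TensorTriangulated 𝒯] [MonoidalClosed 𝒯]
    [HasCoproducts.{0} 𝒯] [HasProducts.{0} 𝒯] [StableCat 𝒯]

/-- additive maps on the maps from a compact object to a telescope -/
theorem exists_tel_hom {F : ℕ ⥤ 𝒯} {G : 𝒯} {io : ∀ n, F.obj n ⟶ G} (h : M.IsTel F G io) {W : 𝒯}
    (hW : M.IsCpt W) {A : Type} [AddCommGroup A] (φ : ∀ n, (W ⟶ F.obj n) →+ A)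
    (hφ : ∀ n y, φ (n + 1) (y ≫ F.map (homOfLE (Nat.le_succ n))) = φ n y) :
    ∃ Φ : (W ⟶ G) →+ A, ∀ n y, Φ (y ≫ io n) = φ n y := by
  have h1 : ∀ n m (hm : n ≤ m) (y : W ⟶ F.obj n), φ m (y ≫ F.map (homOfLE hm)) = φ n y := by
    intro n m hm y
    induction m, hm using Nat.le_induction with
    | base =>
      have : homOfLE (le_refl n) = 𝟙 n := rfl
      rw [this, F.map_id, Category.comp_id]
    | succ m hm ih =>
      have : homOfLE (Nat.le_succ_of_le hm) = homOfLE hm ≫ homOfLE (Nat.le_succ m) := rfl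
      rw [this, F.map_comp, ← Category.assoc, hφ, ih]
  have h2 : ∀ n m (y : W ⟶ F.obj n) (z : W ⟶ F.obj m), y ≫ io n = z ≫ io m → φ n y = φ m z := by
    intro n m y z hyz
    obtain ⟨k, hk, h0⟩ := h.exists_comp_eq_zero hW
      (y ≫ F.map (homOfLE (le_max_left n m)) - z ≫ F.map (homOfLE (le_max_right n m))) (by
        rw [Preadditive.sub_comp, Category.assoc, Category.assoc, h.comp, h.comp, hyz, sub_self])
    have h3 := h1 _ k hk
      (y ≫ F.map (homOfLE (le_max_left n m)) - z ≫ F.map (homOfLE (le_max_right n m)))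
    rw [h0, map_zero, map_sub, h1, h1] at h3
    exact sub_eq_zero.1 h3.symm
  choose n w hw using fun x : W ⟶ G => h.exists_factor' hW x
  have h4 : ∀ m (y : W ⟶ F.obj m), φ _ (w (y ≫ io m)) = φ m y := fun m y => h2 _ _ _ _ (hw _)
  refine ⟨AddMonoidHom.mk' (fun x => φ (n x) (w x)) fun x y => ?_, h4⟩
  rw [← h1 _ _ (le_max_left (n x) (n y)) (w x), ← h1 _ _ (le_max_right (n x) (n y)) (w y),
    ← map_add]
  refine h2 _ _ _ _ ?_
  rw [hw, Preadditive.add_comp, Category.assoc, Category.assoc, h.comp, h.comp, hw, hw]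

variable {B : 𝒯} [MonObj B] [IsCommMonObj B]

/-- the map induced by a linear map of free modules -/
def mpMap {X Y : 𝒯} (f : B ⊗ X ⟶ B ⊗ Y) (hf : (ModStr.free B X).IsLinear (ModStr.free B Y) f) :
    MP (stdEven 𝒯) B X →ₗ[HRing (stdEven 𝒯) B] MP (stdEven 𝒯) B Y where
  toFun := MP.lift fun j => (MP.of (stdEven 𝒯) B Y j).comp (Preadditive.rightComp _ f)
  map_add' := map_add _
  map_smul' a x := by
    rw [RingHom.id_apply]
    induction a using DirectSum.induction_on with
    | zero => rw [zero_smul, map_zero, zero_smul]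
    | of i a =>
      induction x using MP.ind with
      | zero => rw [smul_zero, map_zero, smul_zero]
      | of j x =>
        change MP.lift _ (HRing.of _ B i a • MP.of _ B X j x) =
          HRing.of _ B i a • MP.lift _ (MP.of _ B X j x)
        rw [MP.smul_of (k := i + j) rfl, MP.lift_of, MP.lift_of]
        change MP.of _ B Y (i + j) (gsmul (ModStr.free B X) rfl a x ≫ f) =
          HRing.of _ B i a • MP.of _ B Y j (x ≫ f)
        rw [MP.smul_of (k := i + j) rfl, gsmul_comp _ _ hf]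
      | add x y hx hy => rw [smul_add, map_add, map_add, hx, hy, smul_add]
    | add a b ha hb => rw [add_smul, map_add, ha, hb, add_smul]

theorem mpMap_of {X Y : 𝒯} (f : B ⊗ X ⟶ B ⊗ Y)
    (hf : (ModStr.free B X).IsLinear (ModStr.free B Y) f) (j : ℤ) (x : (stdEven 𝒯).S j ⟶ B ⊗ X) :
    mpMap f hf (MP.of _ B X j x) = MP.of _ B Y j (x ≫ f) :=
  MP.lift_of (fun j => (MP.of (stdEven 𝒯) B Y j).comp (Preadditive.rightComp _ f)) j x

section Pres

variable {A : Type} [CommRing A] {H : ℤ → AddSubgroup A} [GradedRing H]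
  {lam : HRing (stdEven 𝒯) B →+* A} (P : P251EJ.Pres (IsHomog B) H lam)

/-- the generating object of the stage `i` -/
abbrev WW (i : ℕ) : 𝒯 := ∐ fun a => (stdEven 𝒯).S (P.deg i a)

/-- the tautological basis -/
abbrev tb (i : ℕ) : RBasis (stdEven 𝒯) B (WW P i) (P.I i) := RBasis.taut (P.I i) (P.deg i)

/-- the basis of the homotopy of the stage `i` -/
abbrev bs (i : ℕ) : Module.Basis (P.I i) (HRing (stdEven 𝒯) B) (MP (stdEven 𝒯) B (WW P i)) :=
  (tb P i).basis M.isSphere_std

/-- the transition maps -/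
def tr (i : ℕ) : B ⊗ WW P i ⟶ B ⊗ WW P (i + 1) :=
  (tb P i).linMap (ModStr.free B _) fun a => ∑ b, gsmul (ModStr.free B _)
    (sub_add_cancel (P.deg i a) (P.deg (i + 1) b)) (P.M_hom i a b).choose ((tb P (i + 1)).w b)

theorem tr_lin (i : ℕ) : (ModStr.free B _).IsLinear (ModStr.free B _) (tr P i) :=
  RBasis.linMap_isLinear _ _ _

theorem tr_bs (i : ℕ) (a : P.I i) :
    mpMap (tr P i) (tr_lin P i) (bs P i a) = ∑ b, P.M i a b • bs P (i + 1) b := by
  rw [RBasis.basis_apply, mpMap_of]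
  unfold tr
  rw [RBasis.w_linMap, map_sum]
  refine Finset.sum_congr rfl fun b _ => ?_
  rw [RBasis.basis_apply]
  refine (MP.smul_of _ _ _).symm.trans ?_
  rw [← (P.M_hom i a b).choose_spec]
  rfl

theorem repr_tr (i : ℕ) (y : MP (stdEven 𝒯) B (WW P i)) (b : P.I (i + 1)) :
    (bs P (i + 1)).repr (mpMap (tr P i) (tr_lin P i) y) b = ∑ a, (bs P i).repr y a * P.M i a b := by
  classical
  conv_lhs => rw [← (bs P i).sum_repr y]
  simp only [map_sum, map_smul, tr_bs, Module.Basis.repr_self, Finsupp.finsetSum_apply,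
    Finsupp.smul_apply, smul_eq_mul, Finsupp.single_apply, mul_ite, _root_.mul_one, mul_zero,
    Finset.sum_ite_eq', Finset.mem_univ, if_true]

/-- the map from the homotopy of the stage `i` to `A` -/
def th (i : ℕ) : MP (stdEven 𝒯) B (WW P i) →+ A :=
  AddMonoidHom.mk' (fun y => ∑ a, lam ((bs P i).repr y a) * P.g i a) fun x y => by
    simp only [map_add, Finsupp.add_apply, add_mul, Finset.sum_add_distrib]

theorem th_apply (i : ℕ) (y : MP (stdEven 𝒯) B (WW P i)) :
    th P i y = ∑ a, lam ((bs P i).repr y a) * P.g i a := rfl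

theorem th_smul (i : ℕ) (c : HRing (stdEven 𝒯) B) (y : MP (stdEven 𝒯) B (WW P i)) :
    th P i (c • y) = lam c * th P i y := by
  simp only [th_apply, map_smul, Finsupp.smul_apply, smul_eq_mul, map_mul, Finset.mul_sum,
    _root_.mul_assoc]

theorem th_tr (i : ℕ) (y : MP (stdEven 𝒯) B (WW P i)) :
    th P (i + 1) (mpMap (tr P i) (tr_lin P i) y) = th P i y := by
  simp only [th_apply, repr_tr, map_sum, map_mul, Finset.sum_mul]
  rw [Finset.sum_comm]
  refine Finset.sum_congr rfl fun a _ => ?_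
  rw [P.g_succ i a, Finset.mul_sum]
  simp only [_root_.mul_assoc]

theorem th_mem (hl : ∀ d c, IsHomog B d c → lam c ∈ H d) (i : ℕ) (d : ℤ)
    (y : (stdEven 𝒯).S d ⟶ B ⊗ WW P i) : th P i (MP.of _ B _ d y) ∈ H d := by
  rw [th_apply]
  refine AddSubgroup.sum_mem _ fun a _ => ?_
  have h1 := SetLike.mul_mem_graded (hl (d - P.deg i a) _ ⟨_, (tb P i).repr_of M.isSphere_std y a⟩)
    (P.g_mem i a)
  rwa [sub_add_cancel] at h1

theorem th_surj (d : ℤ) (x : A) (hx : x ∈ H d) :
    ∃ (i : ℕ) (y : (stdEven 𝒯).S d ⟶ B ⊗ WW P i), th P i (MP.of _ B _ d y) = x := by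
  classical
  obtain ⟨i, c, hc, rfl⟩ := P.exh d x hx
  choose z hz using hc
  refine ⟨i, ∑ a, gsmul (ModStr.free B _) (sub_add_cancel d (P.deg i a)) (z a) ((tb P i).w a), ?_⟩
  rw [map_sum, map_sum]
  refine Finset.sum_congr rfl fun a _ => ?_
  have h1 : MP.of _ B _ d (gsmul (ModStr.free B _) (sub_add_cancel d (P.deg i a)) (z a)
      ((tb P i).w a)) = c a • bs P i a := by
    rw [RBasis.basis_apply, hz]
    exact (MP.smul_of _ _ _).symm
  rw [h1, th_smul, th_apply]
  simp only [Module.Basis.repr_self, Finsupp.single_apply, apply_ite lam, map_one, map_zero,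
    ite_mul, _root_.one_mul, zero_mul, Finset.sum_ite_eq, Finset.mem_univ, if_true]

/-- the sequence of the stages -/
abbrev FF : ℕ ⥤ 𝒯 := Functor.ofSequence (X := fun i => B ⊗ WW P i) (tr P)

theorem FF_succ (i : ℕ) : (FF P).map (homOfLE (Nat.le_succ i)) = tr P i :=
  Functor.ofSequence_map_homOfLE_succ _ i

theorem th_kill (i : ℕ) (d : ℤ) (y : (stdEven 𝒯).S d ⟶ B ⊗ WW P i)
    (h : th P i (MP.of _ B _ d y) = 0) :
    ∃ (j : ℕ) (hj : i ≤ j), y ≫ (FF P).map (homOfLE hj) = 0 := by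
  classical
  let c : ∀ j, P.I j → HRing (stdEven 𝒯) B := fun j =>
    if hj : i ≤ j then fun a =>
      (bs P j).repr (MP.of _ B (WW P j) d (y ≫ (FF P).map (homOfLE hj))) a else 0
  have hc : ∀ j (hj : i ≤ j) a,
      c j a = (bs P j).repr (MP.of _ B (WW P j) d (y ≫ (FF P).map (homOfLE hj))) a :=
    fun j hj a => congrFun (dif_pos hj) a
  obtain ⟨j, hj, h0⟩ := P.kill i c (fun j hj b => by
    have e : homOfLE (Nat.le_succ_of_le hj) = homOfLE hj ≫ homOfLE (Nat.le_succ j) := rfl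
    have e2 : y ≫ (FF P).map (homOfLE (Nat.le_succ_of_le hj)) =
        (y ≫ (FF P).map (homOfLE hj) : _ ⟶ B ⊗ WW P j) ≫ tr P j := by
      rw [e, Functor.map_comp, FF_succ]
      exact (Category.assoc _ _ _).symm
    rw [hc (j + 1) (Nat.le_succ_of_le hj)]
    refine (congrArg (fun z => (bs P (j + 1)).repr z b)
      ((congrArg (MP.of _ B (WW P (j + 1)) d) e2).trans
        (mpMap_of (tr P j) (tr_lin P j) d _).symm)).trans ?_
    rw [repr_tr]
    exact Finset.sum_congr rfl fun a _ => by rw [hc j hj]) (by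
    have e : homOfLE (le_refl i) = 𝟙 i := rfl
    rw [← h, th_apply]
    refine Finset.sum_congr rfl fun a _ => ?_
    rw [hc i le_rfl, e, CategoryTheory.Functor.map_id]
    erw [Category.comp_id])
  refine ⟨j, hj, MP.of_injective (E := stdEven 𝒯) (P := B) (W := WW P j) d ?_⟩
  refine ((bs P j).ext_elem fun a => ?_).trans (map_zero _).symm
  refine (hc j hj a).symm.trans ?_
  rw [h0, map_zero]
  rfl

end Pres

theorem bij_of_graded {G : 𝒯} {A : Type} [CommRing A] {H : ℤ → AddSubgroup A} [GradedRing H]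
    (θ : ∀ d : ℤ, ((stdEven 𝒯).S d ⟶ G) →+ A) (hm : ∀ d x, θ d x ∈ H d)
    (hi : ∀ d x, θ d x = 0 → x = 0) (hs : ∀ d, ∀ a ∈ H d, ∃ x, θ d x = a) :
    Function.Bijective (DirectSum.toAddMonoid (β := (stdEven 𝒯).Gr G) θ) := by
  have h0 : ∀ d x, DirectSum.toAddMonoid (β := (stdEven 𝒯).Gr G) θ
      (DirectSum.of ((stdEven 𝒯).Gr G) d x) = θ d x :=
    fun d x => DirectSum.toAddMonoid_of (β := (stdEven 𝒯).Gr G) θ d x
  have h1 : ∀ (y : HMod (stdEven 𝒯) G) (d : ℤ), GradedRing.proj H d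
      (DirectSum.toAddMonoid (β := (stdEven 𝒯).Gr G) θ y) = θ d (y d) := fun y d => by
    induction y using DirectSum.induction_on with
    | zero => rw [map_zero, map_zero, DirectSum.zero_apply, map_zero]
    | of k x =>
      rw [h0, GradedRing.proj_apply]
      by_cases h : k = d
      · subst h
        rw [DirectSum.of_eq_same, DirectSum.decompose_of_mem_same H (hm k x)]
      · rw [DirectSum.of_eq_of_ne _ _ _ (Ne.symm h), map_zero,
          DirectSum.decompose_of_mem_ne H (hm k x) h]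
    | add y z hy hz => rw [map_add, map_add, hy, hz, DirectSum.add_apply, map_add]
  refine ⟨(injective_iff_map_eq_zero _).2 fun y hy => DFinsupp.ext fun d => hi d _ ?_,
    fun a => ?_⟩
  · rw [← h1 y d, hy, map_zero]
  · induction a using DirectSum.Decomposition.inductionOn H with
    | zero => exact ⟨0, map_zero _⟩
    | @homogeneous d a =>
      obtain ⟨x, hx⟩ := hs d a a.2
      exact ⟨_, (h0 d x).trans hx⟩
    | add a b ha hb =>
      obtain ⟨y, rfl⟩ := ha
      obtain ⟨z, rfl⟩ := hb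
      exact ⟨y + z, map_add _ _ _⟩

variable (𝒯) in
/-- **The telescope of a presentation.** -/
theorem hs1 : P251EJ80.HS1 𝒯 := by
  intro B _ _ J rb A _ H _ lam ho hl P
  have hB : Fre B B := ⟨J, ⟨rb⟩⟩
  obtain ⟨G, io, tel⟩ := M.exists_isTel (FF P)
  have ht : ∀ i, (ModStr.free B (WW P i)).IsLinear (ModStr.free B (WW P (i + 1)))
      ((FF P).map (homOfLE (Nat.le_succ i))) := fun i => by
    rw [FF_succ]
    exact tr_lin P i
  have hodd : ∀ i, OddZero ((FF P).obj i) := fun i => odd_free ho (Fre.sigma (P.deg i))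
  obtain ⟨mG, hio⟩ := exists_telMod hB tel (fun i => ModStr.free B (WW P i)) ht hodd
    fun i => hB.tensor (Fre.sigma (P.deg i))
  choose θ hθ using fun d : ℤ => exists_tel_hom tel (isCpt_S d)
    (fun i => (th P i).comp (MP.of (stdEven 𝒯) B (WW P i) d)) fun i y => by
      rw [FF_succ]
      exact (congrArg (th P (i + 1)) (mpMap_of (tr P i) (tr_lin P i) d y).symm).trans
        (th_tr P i _)
  have hθ' : ∀ d i (y : (stdEven 𝒯).S d ⟶ B ⊗ WW P i),
      θ d (y ≫ io i) = th P i (MP.of _ B _ d y) := hθ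
  have hs : ∀ d, ∀ a ∈ H d, ∃ x, θ d x = a := fun d a ha => by
    obtain ⟨i, y, rfl⟩ := th_surj P d a ha
    exact ⟨_, hθ' d i y⟩
  have hb := bij_of_graded (H := H) θ (fun d x => by
    obtain ⟨i, y, rfl⟩ := tel.exists_factor' (isCpt_S d) x
    exact (hθ' d i y).symm ▸ th_mem P hl i d y) (fun d x hx => by
    obtain ⟨i, y, rfl⟩ := tel.exists_factor' (isCpt_S d) x
    obtain ⟨j, hj, h0⟩ := th_kill P i d y ((hθ' d i y).symm.trans hx)
    rw [← tel.comp hj, ← Category.assoc]
    exact (congrArg (· ≫ io j) h0).trans zero_comp) hs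
  let e := AddEquiv.ofBijective _ hb
  have he : ∀ d x, e (HRing.of (stdEven 𝒯) G d x) = θ d x :=
    fun d x => DirectSum.toAddMonoid_of (β := (stdEven 𝒯).Gr G) θ d x
  refine ⟨⟨P.I, P.deg, FF P, fun i => ModStr.free B (WW P i), fun i a => (tb P i).w a,
    fun i => (tb P i).isIso', ht, G, io, tel, mG, hio, odd_tel tel hodd, e.symm.toAddMonoidHom,
    e.symm.bijective, fun d a ha => ?_, fun k d n h c a x hx => ?_⟩⟩
  · obtain ⟨x, rfl⟩ := hs d a ha
    exact ⟨x, e.symm_apply_eq.2 (he d x).symm⟩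
  · have h1 : a = θ d x := (e.symm_apply_eq.1 hx).trans (he d x)
    refine e.symm_apply_eq.2 ?_
    obtain ⟨i, y, rfl⟩ := tel.exists_factor' (isCpt_S d) x
    rw [he, h1, gsmul_comp _ mG (hio i)]
    refine Eq.trans ?_ (hθ' n i _).symm
    refine (congrArg (lam _ * ·) (hθ' d i y)).trans ((th_smul P i _ _).symm.trans ?_)
    exact congrArg (th P i) (MP.smul_of h c y)

end Vale.Agent.P251EJ35
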